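import Claimed.Agent.R314.C.Geo.Exit
import Claimed.Agent.R314.C.Trace

/-!
# Row 314, block C, package AFF (helper97), file 1: affine functions, gradients at a point, affine functions along geodesics

Everything is formal: R315 interface (`if_tder_apply`, `if_tan_iff`, `if_cm_bil`, `if_hessC_congr`, `if_christoffel_congr`, ...) and `C/Geo/Exit.lean`.
Leaves `C-AFF-*` (plans in the docstrings).
-/

set_option autoImplicit false
set_option linter.unusedSectionVars false
open scoped ContDiff Topology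
open Set Claims.C0499 Claimed.Agent.R315

namespace Claimed.Agent.R314

variable {V : Type} [NormedAddCommGroup V] [NormedSpace ℝ V] [FiniteDimensional ℝ V]
variable {n : ℕ} {X : Set V} {g : Ten V}

/-! ## the metric on tangent vectors -/

/-- **leaf C-AFF-TAN** (three statements).  `v = dψ A`, `w = dψ B` in ONE parametrisation (`if_tan_iff`), `if_cm_bil`, `(cm g ψ u).PosDef`. -/
theorem tan_symm (hg : IsMetricOn n X g) {x v w : V} (hv : v ∈ if_Tan n X x)
    (hw : w ∈ if_Tan n X x) : g x v w = g x w v := by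
  obtain ⟨ψ, U, u, a, h, hu, rfl, rfl⟩ := hv
  obtain ⟨b, rfl⟩ := (if_tan_iff h hu).1 hw
  rw [← if_cm_bil, ← if_cm_bil]
  exact if_bil_symm (if_isSymm_of_posSemidef ((hg ψ U h).2 u hu).posSemidef) a b

theorem tan_eq_zero (hg : IsMetricOn n X g) {x v : V} (hv : v ∈ if_Tan n X x) (h0 : g x v v = 0) :
    v = 0 := by
  obtain ⟨ψ, U, u, a, h, hu, rfl, rfl⟩ := hv
  rw [← if_cm_bil, if_bil_eq_dot] at h0
  have hpd := (hg ψ U h).2 u hu
  by_cases ha : (a : Fin n → ℝ) = 0
  · have : a = 0 := by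
      ext i
      exact congrFun ha i
    rw [this, map_zero]
  · have := hpd.dotProduct_mulVec_pos ha
    rw [star_trivial] at this
    linarith

/-- Cauchy-Schwarz. -/
theorem tan_cs (hg : IsMetricOn n X g) {x v w : V} (hv : v ∈ if_Tan n X x)
    (hw : w ∈ if_Tan n X x) : g x v w ^ 2 ≤ g x v v * g x w w := by
  obtain ⟨ψ, U, u, a, h, hu, rfl, rfl⟩ := hv
  obtain ⟨b, rfl⟩ := (if_tan_iff h hu).1 hw
  rw [← if_cm_bil, ← if_cm_bil, ← if_cm_bil]
  exact if_bil_cs ((hg ψ U h).2 u hu).posSemidef a b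

/-! ## affine functions form a vector space, invariant under isometries -/

/-- `hessC` of a linear combination of two smooth functions. -/
theorem aff_hessC_lin {d : ℕ} (G : E d → Matrix (Fin d) (Fin d) ℝ) {U : Set (E d)} (hU : IsOpen U) {f k : E d → ℝ}
    (hf : ContDiffOn ℝ ∞ f U) (hk : ContDiffOn ℝ ∞ k U) (p q : ℝ) {u : E d} (hu : u ∈ U) (i j : Fin d) :
    hessC G (fun w => p * f w + q * k w) u i j = p * hessC G f u i j + q * hessC G k u i j := by
  have h1 : ∀ w ∈ U, ∀ l : Fin d, pdiff (fun w => p * f w + q * k w) l w = p * pdiff f l w + q * pdiff k l w := by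
    intro w hw l
    rw [rm_pdiff_add ((rm_da hU hf hw).const_mul p) ((rm_da hU hk hw).const_mul q),
      rm_pdiff_const_mul p (rm_da hU hf hw), rm_pdiff_const_mul q (rm_da hU hk hw)]
  unfold hessC
  rw [rm_pdiff_congr_on hU hu (fun w hw => h1 w hw j),
    rm_pdiff_add ((rm_da hU (rm_pdiff_smooth hU hf j) hu).const_mul p) ((rm_da hU (rm_pdiff_smooth hU hk j) hu).const_mul q),
    rm_pdiff_const_mul p (rm_da hU (rm_pdiff_smooth hU hf j) hu), rm_pdiff_const_mul q (rm_da hU (rm_pdiff_smooth hU hk j) hu)]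
  simp only [h1 u hu, mul_add, Finset.sum_add_distrib]
  have e1 : ∑ l, christoffel G u l i j * (p * pdiff f l u) = p * ∑ l, christoffel G u l i j * pdiff f l u := by
    rw [Finset.mul_sum]
    exact Finset.sum_congr rfl fun l _ => by ring
  have e2 : ∑ l, christoffel G u l i j * (q * pdiff k l u) = q * ∑ l, christoffel G u l i j * pdiff k l u := by
    rw [Finset.mul_sum]
    exact Finset.sum_congr rfl fun l _ => by ring
  rw [e1, e2]
  ring

/-- **leaf C-AFF-VS** (the next five statements).  `hessC` is linear in the function on smooth functions (`pdiff` of sums: `fderiv_add`, `fderiv_const_mul`; differentiability from `ContDiffOn` on the open set `U`). -/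
theorem isAff_const (c : ℝ) : IsAff n X g (fun _ => c) := by
  refine ⟨fun ψ U _ => contDiffOn_const, fun ψ U _ u _ i j => ?_⟩
  have e : ((fun _ : V => c) ∘ ψ) = fun _ : E n => c := rfl
  rw [e]
  unfold hessC
  simp only [rm_pdiff_const, mul_zero, Finset.sum_const_zero, sub_zero]

theorem IsAff.lin {a b : V → ℝ} (ha : IsAff n X g a) (hb : IsAff n X g b) (p q : ℝ) :
    IsAff n X g (fun x => p * a x + q * b x) := by
  refine ⟨fun ψ U hp => (contDiffOn_const.mul (ha.1 ψ U hp)).add (contDiffOn_const.mul (hb.1 ψ U hp)),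
    fun ψ U hp u hu i j => ?_⟩
  have e : ((fun x => p * a x + q * b x) ∘ ψ) = fun w => p * (a ∘ ψ) w + q * (b ∘ ψ) w := rfl
  rw [e, aff_hessC_lin _ (if_open hp) (ha.1 ψ U hp) (hb.1 ψ U hp) p q hu, ha.2 ψ U hp u hu, hb.2 ψ U hp u hu]
  ring

theorem IsAff.add {a b : V → ℝ} (ha : IsAff n X g a) (hb : IsAff n X g b) :
    IsAff n X g (fun x => a x + b x) := by
  simpa using ha.lin hb 1 1

theorem IsAff.smul {a : V → ℝ} (c : ℝ) (ha : IsAff n X g a) : IsAff n X g (fun x => c * a x) := by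
  simpa using ha.lin ha c 0

theorem IsAff.sum {ι : Type} (s : Finset ι) {a : ι → V → ℝ} (c : ι → ℝ)
    (ha : ∀ i ∈ s, IsAff n X g (a i)) : IsAff n X g (fun x => ∑ i ∈ s, c i * a i x) := by
  classical
  induction s using Finset.induction_on with
  | empty => simpa using isAff_const (n := n) (X := X) (g := g) 0
  | insert i s hi ih =>
    have h1 := (ha i (Finset.mem_insert_self i s)).smul (c i)
    have h2 := ih fun j hj => ha j (Finset.mem_insert_of_mem hj)
    have := h1.add h2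
    simpa only [Finset.sum_insert hi] using this

/-- `(a ∘ φ) ∘ ψ = a ∘ (φ ∘ ψ)`, `φ ∘ ψ` is a parametrisation with `cm g (φ ∘ ψ) = cm g ψ` near `u` (`IsLocI.cm_eventuallyEq`, `if_christoffel_congr`). -/
theorem IsAff.comp_locI {a : V → ℝ} {φ : V → V} (ha : IsAff n X g a) (hφ : IsLocI n X g φ) :
    IsAff n X g (a ∘ φ) := by
  refine ⟨hφ.comp_smooth ha.1, fun ψ U hp u hu i j => ?_⟩
  have h1 := ha.2 (φ ∘ ψ) U (hφ.param ψ U hp) u hu i j
  have e : (a ∘ φ) ∘ ψ = a ∘ (φ ∘ ψ) := rfl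
  rw [e, ← h1]
  unfold hessC
  simp only [if_christoffel_congr (hφ.cm_eventuallyEq hp hu)]

theorem IsAff.continuousOn {a : V → ℝ} (hX : IsMfd n X) (ha : IsAff n X g a) : ContinuousOn a X :=
  if_smoothAlong_continuousOn hX ha.1

/-! ## gradients at a point -/

/-- `e` is the gradient of `a` at `x`. -/
def IsGradAt (n : ℕ) (X : Set V) (g : Ten V) (a : V → ℝ) (x e : V) : Prop :=
  e ∈ if_Tan n X x ∧ ∀ v ∈ if_Tan n X x, tder n X a x v = g x e v

/-- **leaf C-AFF-GRAD** (the next three statements).  In a parametrisation with `ψ u = x`: `e = dψ (A)`, `A = (cm g ψ u)⁻¹ *ᵥ (∂_i (a ∘ ψ) u)_i`; `if_tder_apply`, `if_cm_bil`, `if_bil_apply`. -/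
theorem exists_gradAt (hX : IsMfd n X) (hg : IsMetricOn n X g) {a : V → ℝ}
    (ha : SmoothAlong n X a) {x : V} (hx : x ∈ X) : ∃ e, IsGradAt n X g a x e := by
  obtain ⟨ψ, U, hp, u, hu, rfl⟩ := hX x hx
  have hG : (cm g ψ u).PosDef := (hg ψ U hp).2 u hu
  have hs : (cm g ψ u).IsSymm := if_isSymm_of_posSemidef hG.posSemidef
  have hdet : IsUnit (cm g ψ u).det := (Matrix.isUnit_iff_isUnit_det _).1 hG.isUnit
  set p : Fin n → ℝ := fun i => fderiv ℝ (a ∘ ψ) u (eb i) with hpdef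
  set A : E n := WithLp.toLp 2 ((cm g ψ u)⁻¹.mulVec p) with hA
  refine ⟨fderiv ℝ ψ u A, if_tan_mk hp hu A, ?_⟩
  intro v hv
  obtain ⟨B, rfl⟩ := (if_tan_iff hp hu).1 hv
  rw [if_tder_apply ha hp hu, ← if_cm_bil, if_bil_symm hs, if_bil_eq_dot, if_clm_expand]
  have h1 : (cm g ψ u).mulVec (A : Fin n → ℝ) = p := by
    rw [hA]
    show (cm g ψ u).mulVec ((cm g ψ u)⁻¹.mulVec p) = p
    rw [Matrix.mulVec_mulVec, Matrix.mul_nonsing_inv _ hdet, Matrix.one_mulVec]
  rw [h1]
  rfl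

theorem aff_smoothAlong_sum {ι : Type} (s : Finset ι) {a : ι → V → ℝ} (c : ι → ℝ)
    (ha : ∀ i ∈ s, SmoothAlong n X (a i)) : SmoothAlong n X (fun y => ∑ i ∈ s, c i * a i y) := by
  intro ψ U hp
  have : ContDiffOn ℝ ∞ (fun w => ∑ i ∈ s, c i * (a i ∘ ψ) w) U :=
    ContDiffOn.sum fun i hi => contDiffOn_const.mul (ha i hi ψ U hp)
  exact this

/-- linear combinations (`tder` is linear in the function on tangent vectors: `if_tder_apply`). -/
theorem IsGradAt.sum {ι : Type} (s : Finset ι) {a : ι → V → ℝ} {e : ι → V} (c : ι → ℝ) {x : V}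
    (hX : IsMfd n X) (hx : x ∈ X) (ha : ∀ i ∈ s, SmoothAlong n X (a i))
    (he : ∀ i ∈ s, IsGradAt n X g (a i) x (e i)) :
    IsGradAt n X g (fun y => ∑ i ∈ s, c i * a i y) x (∑ i ∈ s, c i • e i) := by
  classical
  constructor
  · have key : ∀ t : Finset ι, t ⊆ s → (∑ i ∈ t, c i • e i) ∈ if_Tan n X x := by
      intro t
      induction t using Finset.induction_on with
      | empty => intro _; simpa using if_tan_zero hX hx
      | insert i t hi ih =>
        intro hts
        rw [Finset.sum_insert hi]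
        exact if_tan_add (if_tan_smul _ (he i (hts (Finset.mem_insert_self i t))).1)
          (ih fun j hj => hts (Finset.mem_insert_of_mem hj))
    exact key s subset_rfl
  · intro v hv
    have hv' := hv
    obtain ⟨ψ, U, u, A, hp, hu, rfl, rfl⟩ := hv
    rw [if_tder_apply (aff_smoothAlong_sum s c ha) hp hu]
    have h1 : HasFDerivAt ((fun y => ∑ i ∈ s, c i * a i y) ∘ ψ)
        (∑ i ∈ s, c i • fderiv ℝ (a i ∘ ψ) u) u := by
      have : HasFDerivAt (fun w => ∑ i ∈ s, c i * (a i ∘ ψ) w)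
          (∑ i ∈ s, c i • fderiv ℝ (a i ∘ ψ) u) u :=
        HasFDerivAt.fun_sum fun i hi =>
          ((if_smoothAlong_differentiableAt (ha i hi) hp hu).hasFDerivAt.const_mul (c i))
      exact this
    rw [h1.fderiv]
    simp only [sum_apply, smul_apply, map_sum, map_smul,
      smul_eq_mul]
    refine Finset.sum_congr rfl fun i hi => ?_
    rw [← (he i hi).2 _ hv', if_tder_apply (ha i hi) hp hu]

/-- adding a function which is constant on `X` does not change the gradient; used as `a' = c₀ + …`. -/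
theorem IsGradAt.congr {a a' : V → ℝ} {x e : V} (ha : SmoothAlong n X a)
    (ha' : SmoothAlong n X a') {c₀ : ℝ} (hc : ∀ y ∈ X, a' y = c₀ + a y)
    (he : IsGradAt n X g a x e) : IsGradAt n X g a' x e := by
  refine ⟨he.1, fun v hv => ?_⟩
  rw [← he.2 v hv]
  obtain ⟨ψ, U, u, A, hp, hu, rfl, rfl⟩ := hv
  rw [if_tder_apply ha hp hu, if_tder_apply ha' hp hu]
  have h1 : a' ∘ ψ =ᶠ[𝓝 u] fun w => c₀ + (a ∘ ψ) w := by
    filter_upwards [(if_open hp).mem_nhds hu] with w hw
    exact hc _ (if_mem hp hw)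
  rw [h1.fderiv_eq, fderiv_const_add]

/-! ## affine functions along geodesics -/

/-- **leaf C-AFF-HESS**: the chart Hessian of an affine function vanishes.  `(rgeo g ψ U).hess f u (eb i) (eb j) = hessC (cm g ψ) f u i j` (unfold; `if_Gam_apply`, `if_clm_expand`),
bilinearity in `A` for smooth `f` (expand `A = ∑ A i • eb i`, `if_sum_eb`; `fderiv` of `y ↦ fderiv f y A` is linear in `A` because `fderiv f` is differentiable).  [`C/Trace.lean` (T3) of helper93 may already contain it: then cite it.] -/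
theorem IsAff.rgeo_hess {a : V → ℝ} (ha : IsAff n X g a) {ψ : E n → V} {U : Set (E n)}
    (hp : IsParam X ψ U) {u : E n} (hu : u ∈ U) (A : E n) :
    (rgeo g ψ U).hess (a ∘ ψ) u A A = 0 := by
  have hf : ContDiffAt ℝ 2 (a ∘ ψ) u :=
    ((ha.1 ψ U hp).contDiffAt (hp.1.mem_nhds hu)).of_le rm_two_le
  rw [tr_rgeo, tr_hess_expand _ _ hf]
  exact Finset.sum_eq_zero fun i _ => Finset.sum_eq_zero fun j _ => by
    rw [ha.2 ψ U hp u hu i j, zero_mul]

/-- **leaf C-AFF-GEO**: an affine function is affine along geodesics.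
`f = a ∘ γ` is smooth on `Ioo p q` (`IsGeo.contDiffOn_comp`), `deriv (deriv f) = 0` there (`IsGeo.deriv2_comp`, `IsAff.rgeo_hess`; the parametrisation from `hX`, `A` from `IsGeo.deriv_mem_tan` and `if_tan_iff`),
so `deriv f` is constant on the interval and `f t = f t₀ + (t - t₀) * deriv f t₀` (`is_const_of_deriv_eq_zero`-type argument on the convex open set `Ioo p q`: `Convex.is_const_of_fderivWithin_eq_zero` or the mean value theorem);
`deriv f t₀` by `IsGeo.deriv_comp`. -/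
theorem IsAff.comp_geo (hX : IsMfd n X) (hg : IsMetricOn n X g) {a : V → ℝ} (ha : IsAff n X g a)
    {γ : ℝ → V} {p q : ℝ} (hγ : IsGeo n X g γ (Ioo p q)) {t₀ t : ℝ} (ht₀ : t₀ ∈ Ioo p q)
    (ht : t ∈ Ioo p q) :
    a (γ t) = a (γ t₀) + (t - t₀) * tder n X a (γ t₀) (deriv γ t₀) := by
  have hI : IsOpen (Ioo p q) := isOpen_Ioo
  have hpc : IsPreconnected (Ioo p q) := isPreconnected_Ioo
  have hf : ContDiffOn ℝ ∞ (a ∘ γ) (Ioo p q) := hγ.contDiffOn_comp hX hI ha.1
  have hfa : ∀ s ∈ Ioo p q, ContDiffAt ℝ ∞ (a ∘ γ) s := fun s hs => hf.contDiffAt (hI.mem_nhds hs)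
  have hd1 : ∀ s ∈ Ioo p q, DifferentiableAt ℝ (a ∘ γ) s := fun s hs =>
    (hfa s hs).differentiableAt (by simp)
  have hd2 : DifferentiableOn ℝ (deriv (a ∘ γ)) (Ioo p q) := by
    have h1 : ContDiffOn ℝ ∞ (deriv (a ∘ γ)) (Ioo p q) :=
      ((contDiffOn_infty_iff_deriv_of_isOpen hI).1 hf).2
    exact h1.differentiableOn (by simp)
  have h2 : (Ioo p q).EqOn (deriv (deriv (a ∘ γ))) 0 := by
    intro s hs
    obtain ⟨ψ, U, hp, u, hu, hus⟩ := hX (γ s) (hγ.2.1 s hs)
    have htan := hγ.deriv_mem_tan hX hI hs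
    rw [← hus] at htan
    obtain ⟨A, hA⟩ := (if_tan_iff hp hu).1 htan
    rw [hγ.deriv2_comp hX hg hI ha.1 hs hp hu hus hA.symm, ha.rgeo_hess hp hu A]
    rfl
  have hc : ∀ s ∈ Ioo p q, deriv (a ∘ γ) s = deriv (a ∘ γ) t₀ := fun s hs =>
    hI.is_const_of_deriv_eq_zero hpc hd2 h2 hs ht₀
  have h3 : (Ioo p q).EqOn (a ∘ γ) (fun s => a (γ t₀) + (s - t₀) * deriv (a ∘ γ) t₀) := by
    refine hI.eqOn_of_deriv_eq hpc (fun s hs => (hd1 s hs).differentiableWithinAt)
      (by fun_prop) (fun s hs => ?_) ht₀ (by simp)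
    rw [hc s hs]
    have : HasDerivAt (fun s => a (γ t₀) + (s - t₀) * deriv (a ∘ γ) t₀) (1 * deriv (a ∘ γ) t₀) s :=
      (((hasDerivAt_id s).sub_const t₀).mul_const _).const_add _
    rw [this.deriv, one_mul]
  have h4 := h3 ht
  rw [hγ.deriv_comp hX hI ha.1 ht₀] at h4
  exact h4

/-- a unit speed minimizing geodesic between two different points (glue of `exists_seg`, `IsSeg.exists_geo`). -/
theorem exists_unit_geo (h : CM n X g) {x y : V} (hx : x ∈ X) (hy : y ∈ X) (hne : x ≠ y) :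
    ∃ (γ : ℝ → V) (ε : ℝ), 0 < ε ∧ 0 < rdist X g x y ∧
      IsGeo n X g γ (Ioo (-ε) (rdist X g x y + ε)) ∧ γ 0 = x ∧ γ (rdist X g x y) = y ∧
      deriv γ 0 ∈ if_Tan n X x ∧ g x (deriv γ 0) (deriv γ 0) = 1 := by
  have hl : 0 < rdist X g x y := if_rdist_pos h.mfd h.conn.isPreconnected h.met hx hy hne
  obtain ⟨c, hc0, hc1, hc⟩ := exists_seg h hx hy
  obtain ⟨γ, ε, hε, hγ, heq, hsp⟩ := hc.exists_geo h hl
  have h0 : (0 : ℝ) ∈ Icc 0 (rdist X g x y) := ⟨le_rfl, hl.le⟩
  have h1 : rdist X g x y ∈ Icc 0 (rdist X g x y) := ⟨hl.le, le_rfl⟩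
  have h0' : (0 : ℝ) ∈ Ioo (0 - ε) (rdist X g x y + ε) := ⟨by linarith, by linarith⟩
  have e0 : γ 0 = x := (heq h0).trans hc0
  refine ⟨γ, ε, hε, hl, by simpa using hγ, e0, (heq h1).trans hc1, ?_, ?_⟩
  · have := hγ.deriv_mem_tan h.mfd isOpen_Ioo h0'
    rwa [e0] at this
  · have := hsp 0 h0'
    rwa [e0] at this

/-- the increment of an affine function between two points. -/
theorem IsAff.sub_eq (h : CM n X g) {x y : V} {γ : ℝ → V} {ε l : ℝ} (hε : 0 < ε) (hl : 0 < l)
    (hγ : IsGeo n X g γ (Ioo (-ε) (l + ε))) (h0 : γ 0 = x) (h1 : γ l = y) {a : V → ℝ}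
    (ha : IsAff n X g a) : a y = a x + l * tder n X a x (deriv γ 0) := by
  have := ha.comp_geo h.mfd h.met hγ (t₀ := 0) (t := l) ⟨by linarith, by linarith⟩
    ⟨by linarith, by linarith⟩
  rw [h0, h1, sub_zero] at this
  exact this

/-- **rigidity**: an affine function with vanishing differential at one point is constant. -/
theorem IsAff.eq_of_tder_zero (h : CM n X g) {a : V → ℝ} (ha : IsAff n X g a) {x : V} (hx : x ∈ X)
    (h0 : ∀ v ∈ if_Tan n X x, tder n X a x v = 0) {y : V} (hy : y ∈ X) : a y = a x := by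
  by_cases hne : x = y
  · rw [hne]
  obtain ⟨γ, ε, hε, hl, hγ, e0, e1, htan, -⟩ := exists_unit_geo h hx hy hne
  rw [ha.sub_eq h hε hl hγ e0 e1, h0 _ htan, mul_zero, add_zero]

/-- Lipschitz bound from the gradient at ONE point. -/
theorem IsAff.abs_sub_le (h : CM n X g) {a : V → ℝ} (ha : IsAff n X g a) {x e : V} (hx : x ∈ X)
    (he : IsGradAt n X g a x e) {y : V} (hy : y ∈ X) :
    |a y - a x| ≤ Real.sqrt (g x e e) * rdist X g x y := by
  by_cases hne : x = y
  · subst hne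
    simp [if_rdist_self g hx]
  obtain ⟨γ, ε, hε, hl, hγ, e0, e1, htan, hu⟩ := exists_unit_geo h hx hy hne
  rw [ha.sub_eq h hε hl hγ e0 e1, he.2 _ htan, add_sub_cancel_left, abs_mul, abs_of_pos hl, mul_comm]
  refine mul_le_mul_of_nonneg_right ?_ hl.le
  have hcs := tan_cs h.met he.1 htan
  rw [hu, mul_one] at hcs
  exact Real.abs_le_sqrt hcs

end Claimed.Agent.R314
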