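import Claimed.Agent.R314.C.Aff.Basic
import Claimed.Agent.R314.C.Bus.Exit
import Claimed.Agent.R314.C.Reg.Exit

/-!
# Row 314, block C, package AFF (helper97), file 4: lines give affine functions; the common fibres of all affine functions are bounded
-/

set_option autoImplicit false
set_option linter.unusedSectionVars false
open scoped ContDiff Topology
open Set Filter Claims.C0499 Claimed.Agent.R315

namespace Claimed.Agent.R314

variable {V : Type} [NormedAddCommGroup V] [NormedSpace ℝ V] [FiniteDimensional ℝ V]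
variable {n : ℕ} {X : Set V} {g : Ten V}

/-- **the splitting theorem, in the form which is used**: a line gives an affine function which is the arc length on the line. -/
theorem aff_of_line (h : CM n X g) (hR : RicFlat n X g) {c : ℝ → V} (hc : IsLine X g c) :
    ∃ a : V → ℝ, IsAff n X g a ∧ ∀ t, a (c t) = t := by
  obtain ⟨b, hb, hbc, hl⟩ := bus_main h (fun o ho x hx hne => sv_lap h hR ho hx hne) hc
  exact ⟨b, reg_main h hR hb hl, hbc⟩

/-- **leaf C-AFF-SEG**: an affine function with equal values at the two ends of a metric segment is constant on it.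
`p = q` trivial.  `IsSeg.exists_geo`: `γ = c` on `Icc p q`, geodesic on `Ioo (p - ε) (q + ε)`; `IsAff.comp_geo` with `t₀ = p`: `a (γ t) = a (γ p) + (t - p) * m`; `t = q` gives `m = 0`. -/
theorem IsAff.const_on_seg (h : CM n X g) {a : V → ℝ} (ha : IsAff n X g a) {c : ℝ → V} {p q : ℝ}
    (hpq : p ≤ q) (hc : IsSeg X g c (Icc p q)) (he : a (c p) = a (c q)) {t : ℝ}
    (ht : t ∈ Icc p q) : a (c t) = a (c p) := by
  rcases hpq.eq_or_lt with rfl | hlt
  · have e : t = p := le_antisymm ht.2 ht.1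
    rw [e]
  obtain ⟨γ, ε, hε, hγ, heq, -⟩ := hc.exists_geo h hlt
  have hp : p ∈ Ioo (p - ε) (q + ε) := ⟨by linarith, by linarith⟩
  have hq : q ∈ Ioo (p - ε) (q + ε) := ⟨by linarith, by linarith⟩
  have ht' : t ∈ Ioo (p - ε) (q + ε) := ⟨by linarith [ht.1], by linarith [ht.2]⟩
  have e1 := ha.comp_geo h.mfd h.met hγ hp hq
  have e2 := ha.comp_geo h.mfd h.met hγ hp ht'
  generalize tder n X a (γ p) (deriv γ p) = m at e1 e2
  have hγp : γ p = c p := heq ⟨le_rfl, hlt.le⟩
  have hγq : γ q = c q := heq ⟨hlt.le, le_rfl⟩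
  have hγt : γ t = c t := heq ht
  rw [hγp, hγq] at e1
  rw [hγp, hγt] at e2
  have hm : (q - p) * m = 0 := by linarith
  have hm0 : m = 0 := by
    rcases mul_eq_zero.1 hm with h0 | h0
    · exact absurd h0 (by linarith : q - p ≠ 0)
    · exact h0
  rw [e2, hm0, mul_zero, add_zero]

/-- **leaf C-AFF-MOVE**: shift and isometric image of a metric segment (`IsIso.rdist_eq`, `IsLocI.mapsTo`). -/
theorem IsSeg.move (h : CM n X g) {c : ℝ → V} {p q : ℝ} (hc : IsSeg X g c (Icc p q)) {φ : V → V}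
    (hφ : IsIso n X g φ) (d : ℝ) : IsSeg X g (fun t => φ (c (t + d))) (Icc (p - d) (q - d)) := by
  have hm : ∀ s ∈ Icc (p - d) (q - d), s + d ∈ Icc p q := fun s hs => ⟨by linarith [hs.1], by linarith [hs.2]⟩
  refine ⟨fun s hs => hφ.1.mapsTo h.mfd (hc.1 _ (hm s hs)), fun s hs t ht => ?_⟩
  show rdist X g (φ (c (s + d))) (φ (c (t + d))) = |s - t|
  rw [hφ.rdist_eq h.mfd h.met h.conn.isPreconnected (hc.1 _ (hm s hs)) (hc.1 _ (hm t ht)),
    hc.2 _ (hm s hs) _ (hm t ht)]
  congr 1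
  ring

/-- **leaf C-AFF-FIB**: the common fibres of the affine functions are uniformly bounded.
By contradiction: for every `j : ℕ` points `x_j, y_j ∈ X` on which all affine functions agree, `l_j := rdist x_j y_j > 2 j`.  `exists_seg`: `c_j` on `Icc 0 l_j`.  `h.cocpt`: compact `K ⊆ X`, `φ_j` with `φ_j (c_j (l_j/2)) ∈ K`.
`c'_j t := φ_j (c_j (t + l_j/2))` is a segment on `Icc (-l_j/2) (l_j/2)` (`IsSeg.move`), `c'_j 0 ∈ K`.  `bus_limit`: `c'`, a segment on `{t | ∀ᶠ j, -l_j/2 ≤ t ≤ l_j/2} = univ`: a line, `c'_j t → c' t` along `hyperfilter ℕ`.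
`aff_of_line`: `a` affine with `a (c' t) = t`.  `a ∘ φ_j` is affine (`IsAff.comp_locI`), so it agrees at `x_j = c_j 0`, `y_j = c_j l_j`: `a` agrees at the two ends of `c'_j`, hence `a (c'_j 1) = a (c'_j (-l_j/2)) = a (c'_j 0)` for `j ≥ 1` (`IsAff.const_on_seg`).
Limit along the hyperfilter (`IsAff.continuousOn`, all points in `X`; `ContinuousOn.continuousWithinAt`, `tendsto_nhdsWithin_iff`; `hyperfilter_le_atTop`-type: `Nat.hyperfilter_le_atTop`): `1 = a (c' 1) = a (c' 0) = 0`. -/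
theorem aff_fibre_bdd (h : UCont n X g) (hR : RicFlat n X g) :
    ∃ C : ℝ, ∀ x ∈ X, ∀ y ∈ X, (∀ a : V → ℝ, IsAff n X g a → a x = a y) → rdist X g x y ≤ C := by
  by_contra hcon
  push Not at hcon
  have hCM := h.toCM
  have key : ∀ j : ℕ, ∃ (l : ℝ) (c : ℝ → V), 2 * (j : ℝ) + 2 < l ∧ IsSeg X g c (Icc 0 l) ∧
      ∀ a : V → ℝ, IsAff n X g a → a (c 0) = a (c l) := by
    intro j
    obtain ⟨x, hx, y, hy, hxy, hl⟩ := hcon (2 * (j : ℝ) + 2)
    obtain ⟨c, hc0, hc1, hc⟩ := exists_seg hCM hx hy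
    exact ⟨_, c, hl, hc, fun a ha => by rw [hc0, hc1]; exact hxy a ha⟩
  choose l c hl hc hends using key
  obtain ⟨K, hK, hKX, hcoc⟩ := h.cocpt
  have hl2 : ∀ j, 2 < l j := fun j => by
    have := hl j
    have : (0 : ℝ) ≤ (j : ℝ) := Nat.cast_nonneg j
    linarith
  choose φ hφ hφK using fun j => hcoc (c j (l j / 2)) ((hc j).1 _ ⟨by linarith [hl2 j], by linarith [hl2 j]⟩)
  have hc' : ∀ j, IsSeg X g (fun t => φ j (c j (t + l j / 2))) (Icc (-(l j / 2)) (l j / 2)) := by
    intro j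
    have h1 := (hc j).move hCM (hφ j) (l j / 2)
    have e1 : (0 : ℝ) - l j / 2 = -(l j / 2) := by ring
    have e2 : l j - l j / 2 = l j / 2 := by ring
    rwa [e1, e2] at h1
  have hev : ∀ t : ℝ, ∀ᶠ k in atTop, -(l k / 2) ≤ t ∧ t ≤ l k / 2 := by
    intro t
    obtain ⟨N, hN⟩ := exists_nat_ge |t|
    filter_upwards [eventually_ge_atTop N] with k hk
    have h1 : (N : ℝ) ≤ k := by exact_mod_cast hk
    have h2 := hl k
    have h3 := abs_le.1 (le_refl |t|)
    constructor <;> linarith [h3.1, h3.2]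
  obtain ⟨cl, hcl, hlim⟩ := bus_limit hCM hc' hK (fun j => ⟨by linarith [hl2 j], by linarith [hl2 j], by
    show φ j (c j (0 + l j / 2)) ∈ K
    rw [zero_add]
    exact hφK j⟩)
  have huniv : {t : ℝ | ∀ᶠ k in atTop, -(l k / 2) ≤ t ∧ t ≤ l k / 2} = univ := eq_univ_of_forall hev
  rw [huniv] at hcl hlim
  obtain ⟨a, ha, hat⟩ := aff_of_line hCM hR hcl
  have hconst : ∀ j, a (φ j (c j (1 + l j / 2))) = a (φ j (c j (0 + l j / 2))) := by
    intro j
    have haφ : IsAff n X g (a ∘ φ j) := ha.comp_locI (hφ j).1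
    have he : a ((fun t => φ j (c j (t + l j / 2))) (-(l j / 2))) = a ((fun t => φ j (c j (t + l j / 2))) (l j / 2)) := by
      show a (φ j (c j (-(l j / 2) + l j / 2))) = a (φ j (c j (l j / 2 + l j / 2)))
      rw [neg_add_cancel, add_halves]
      exact hends j _ haφ
    have hle : -(l j / 2) ≤ l j / 2 := by linarith [hl2 j]
    have h1 := ha.const_on_seg hCM hle (hc' j) he (t := 1) ⟨by linarith [hl2 j], by linarith [hl2 j]⟩
    have h0 := ha.const_on_seg hCM hle (hc' j) he (t := 0) ⟨by linarith [hl2 j], by linarith [hl2 j]⟩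
    exact h1.trans h0.symm
  have hcont := ha.continuousOn hCM.mfd
  have lim : ∀ t : ℝ, Tendsto (fun j => a (φ j (c j (t + l j / 2)))) (hyperfilter ℕ : Filter ℕ) (𝓝 (a (cl t))) := by
    intro t
    have h1 := hlim t (mem_univ t)
    have hX' : ∀ᶠ j in (hyperfilter ℕ : Filter ℕ), φ j (c j (t + l j / 2)) ∈ X :=
      ((hev t).filter_mono Nat.hyperfilter_le_atTop).mono fun k hk => (hc' k).1 t hk
    have h2 : Tendsto (fun j => φ j (c j (t + l j / 2))) (hyperfilter ℕ : Filter ℕ) (𝓝[X] (cl t)) :=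
      tendsto_nhdsWithin_iff.2 ⟨h1, hX'⟩
    exact (hcont (cl t) (hcl.1 t (mem_univ t))).tendsto.comp h2
  have e : a (cl 1) = a (cl 0) := tendsto_nhds_unique ((lim 1).congr hconst) (lim 0)
  rw [hat, hat] at e
  norm_num at e

end Claimed.Agent.R314
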