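import Claimed.Agent.R314.C.Aff.Sec
import Claimed.Agent.R314.C.Aff.Fib
import Claimed.Agent.R314.C.FlatChart
import Claimed.Agent.R314.T.Main

/-!
# Row 314, block C, package AFF (helper97), file 5: the end game

`hs : AffSys n X g x₀ k a e` spanning.
* `k < n` is impossible: `G = s ∘ Φ` is continuous, at bounded distance from the identity (`aff_fibre_bdd`), hence onto (`surj_of_bdd`), but misses a point of the geodesic
  in a direction orthogonal to all gradients.
* `k = n`: `fc_flat` (helper106).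
-/

set_option autoImplicit false
set_option linter.unusedSectionVars false
open scoped ContDiff Topology
open Set Claims.C0499 Claimed.Agent.R315

namespace Claimed.Agent.R314

section general

variable {V : Type} [NormedAddCommGroup V] [NormedSpace ℝ V] [FiniteDimensional ℝ V]
variable {n : ℕ} {X : Set V} {g : Ten V}
variable {x₀ : V} {k : ℕ} {a : Fin k → V → ℝ} {e : Fin k → V}

/-- points with the same `Φ` are not separated by affine functions. -/
theorem AffSys.Spans.eq_of_phi (hsp : AffSys.Spans n X g a) {x y : V} (hx : x ∈ X) (hy : y ∈ X)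
    (he : aPhi a x₀ x = aPhi a x₀ y) (a' : V → ℝ) (ha' : IsAff n X g a') : a' x = a' y := by
  obtain ⟨c₀, c, hc⟩ := hsp a' ha'
  rw [hc x hx, hc y hy]
  congr 1
  refine Finset.sum_congr rfl fun i _ => ?_
  have := congrArg (fun ξ : E k => ξ i) he
  simp only [aPhi_apply] at this
  have h2 : a i x = a i y := by linarith
  rw [h2]

/-- a point of `X` different from `x₀` with `Φ = 0`, if `k < n`. -/
theorem AffSys.exists_phi_zero (h : CM n X g) (hx₀ : x₀ ∈ X) (hs : AffSys n X g x₀ k a e)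
    (hk : k < n) : ∃ q ∈ X, q ≠ x₀ ∧ aPhi a x₀ q = 0 := by
  obtain ⟨v, hv, hv0, hperp⟩ := hs.exists_perp h.mfd hx₀ hk
  obtain ⟨γ, hγ, h0, hd⟩ := geo_exists h hx₀ hv
  have hphi : ∀ t : ℝ, aPhi a x₀ (γ t) = 0 := by
    intro t
    ext i
    have := (hs.aff i).comp_geo h.mfd h.met
      (hγ.mono (subset_univ (Ioo (-(|t| + 1)) (|t| + 1)))) (t₀ := 0) (t := t)
      ⟨by have := abs_nonneg t; linarith, by have := abs_nonneg t; linarith⟩
      ⟨by have := neg_abs_le t; linarith, by have := le_abs_self t; linarith⟩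
    rw [h0, hd, (hs.grad i).2 _ hv, hperp i, mul_zero, add_zero] at this
    rw [aPhi_apply, this, sub_self]
    rfl
  by_contra hcon
  push Not at hcon
  have hconst : ∀ t, γ t = x₀ := fun t => by
    by_contra hne
    exact hcon (γ t) (hγ.2.1 t (mem_univ _)) hne (hphi t)
  have : deriv γ 0 = 0 := by
    have h1 : γ = fun _ => x₀ := funext hconst
    rw [h1]
    simp
  exact hv0 (hd ▸ this)

/-- `k = n`: flat. -/
theorem AffSys.flat (h : CM n X g) (hx₀ : x₀ ∈ X) {a : Fin n → V → ℝ} {e : Fin n → V}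
    (hs : AffSys n X g x₀ n a e) : Flat n X g := by
  intro ψ U hp u hu l i j m
  have hmet : rm_Met (cm g ψ) U := ⟨if_open hp, (h.met ψ U hp).1, (h.met ψ U hp).2⟩
  refine fc_flat hmet (fun m => a m ∘ ψ) (fun m => (hs.aff m).1 ψ U hp)
    (fun m w hw i j => (hs.aff m).2 ψ U hp w hw i j) hu ?_ l i j m
  intro c hc
  -- the affine function `∑ c m * a m` has vanishing differential at `ψ u`
  have haff : IsAff n X g (fun y => ∑ m ∈ Finset.univ, c m * a m y) :=
    IsAff.sum Finset.univ c fun m _ => hs.aff m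
  have hgrad : IsGradAt n X g (fun y => ∑ m ∈ Finset.univ, c m * a m y) x₀
      (∑ m ∈ Finset.univ, c m • e m) :=
    IsGradAt.sum Finset.univ c h.mfd hx₀ (fun m _ => (hs.aff m).1) fun m _ => hs.grad m
  have hzero : ∀ v ∈ if_Tan n X (ψ u),
      tder n X (fun y => ∑ m ∈ Finset.univ, c m * a m y) (ψ u) v = 0 := by
    intro v hv
    obtain ⟨A, rfl⟩ := (if_tan_iff hp hu).1 hv
    rw [if_tder_apply haff.1 hp hu]
    have hd : ∀ m, DifferentiableAt ℝ (a m ∘ ψ) u := fun m =>
      (((hs.aff m).1 ψ U hp).contDiffAt ((if_open hp).mem_nhds hu)).differentiableAt (by simp)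
    have e1 : ((fun y => ∑ m ∈ Finset.univ, c m * a m y) ∘ ψ) =
        fun w => ∑ m ∈ Finset.univ, c m * (a m ∘ ψ) w := rfl
    rw [e1, fderiv_fun_sum fun m _ => (hd m).const_mul (c m)]
    simp only [sum_apply]
    have e2 : ∀ m, fderiv ℝ (fun w => c m * (a m ∘ ψ) w) u A = c m * fderiv ℝ (a m ∘ ψ) u A := by
      intro m
      rw [fderiv_const_mul (hd m)]
      rfl
    simp only [e2]
    have e3 : ∀ m, fderiv ℝ (a m ∘ ψ) u A = ∑ i, A i * pdiff (a m ∘ ψ) i u := fun m =>
      if_clm_expand _ A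
    simp only [e3, Finset.mul_sum]
    rw [Finset.sum_comm]
    refine Finset.sum_eq_zero fun i _ => ?_
    have := hc i
    calc ∑ m, c m * (A i * pdiff (a m ∘ ψ) i u) = A i * ∑ m, c m * pdiff (a m ∘ ψ) i u := by
          rw [Finset.mul_sum]
          exact Finset.sum_congr rfl fun m _ => by ring
      _ = 0 := by rw [this, mul_zero]
  -- hence it is constant, hence its gradient at `x₀` vanishes
  have hconst : ∀ y ∈ X, (fun y => ∑ m ∈ Finset.univ, c m * a m y) y =
      (fun y => ∑ m ∈ Finset.univ, c m * a m y) (ψ u) := fun y hy =>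
    haff.eq_of_tder_zero h (if_mem hp hu) hzero hy
  have hg0 : IsGradAt n X g (fun y => ∑ m ∈ Finset.univ, c m * a m y) x₀ 0 := by
    have h0 : IsGradAt n X g (fun _ : V => (0 : ℝ)) x₀ 0 := by
      have := IsGradAt.sum (g := g) (∅ : Finset (Fin n)) (a := a) (e := e) c h.mfd hx₀
        (fun m hm => absurd hm (Finset.notMem_empty m)) (fun m hm => absurd hm (Finset.notMem_empty m))
      simpa using this
    exact h0.congr (isAff_const (n := n) (X := X) (g := g) 0).1 haff.1
      (c₀ := ∑ m ∈ Finset.univ, c m * a m (ψ u)) (fun y hy => by rw [add_zero]; exact hconst y hy)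
  funext j
  have h1 := hgrad.2 _ (hs.grad j).1
  have h2 := hg0.2 _ (hs.grad j).1
  rw [h1] at h2
  have h3 : g x₀ (∑ m ∈ Finset.univ, c m • e m) (e j) = c j := by
    rw [tan_symm h.met (hs.sum_mem_tan h.mfd hx₀ c) (hs.grad j).1, hs.inner_sum]
  rw [h3] at h2
  simpa using h2

end general

section final

variable {n N : ℕ} {X : Set (E N)} {g : Ten (E N)}
variable {x₀ : E N} {k : ℕ} {a : Fin k → E N → ℝ} {e : Fin k → E N}

/-- `k < n` is impossible. -/
theorem AffSys.not_lt (h : UCont n X g) (hR : RicFlat n X g) (hx₀ : x₀ ∈ X)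
    (hs : AffSys n X g x₀ k a e) (hsp : AffSys.Spans n X g a) : ¬ k < n := by
  intro hk
  have hc := h.toCM
  obtain ⟨C, hC⟩ := aff_fibre_bdd h hR
  set G : E N → E N := fun x => aSec n X g x₀ e (aPhi a x₀ x) with hG
  have hGc : ContinuousOn G X :=
    (hs.sec_continuous hc hx₀).comp_continuousOn (aPhi_continuousOn hc.mfd hs)
  have hGm : MapsTo G X X := fun x _ => hs.sec_mem hc hx₀ _
  have hGd : ∀ x ∈ X, rdist X g x (G x) ≤ C := fun x hx =>
    hC x hx (G x) (hGm hx) fun a' ha' =>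
      hsp.eq_of_phi (x₀ := x₀) hx (hGm hx) (hs.phi_sec hc hx₀ _).symm a' ha'
  have hsurj := surj_of_bdd h hGc hGm hGd
  obtain ⟨q, hq, hne, hq0⟩ := hs.exists_phi_zero hc hx₀ hk
  obtain ⟨x, hx, hxq⟩ := hsurj hq
  have h1 : rdist X g x₀ q = ‖aPhi a x₀ x‖ := by rw [← hxq]; exact hs.rdist_sec hc hx₀ _
  have h2 : aPhi a x₀ x = 0 := by
    have := hs.phi_sec hc hx₀ (aPhi a x₀ x)
    rw [← this]
    show aPhi a x₀ (G x) = 0
    rw [hxq, hq0]
  rw [h2, norm_zero] at h1
  exact hne ((if_rdist_eq_zero_iff hc.mfd hc.conn.isPreconnected hc.met hx₀ hq).1 h1).symm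

end final

end Claimed.Agent.R314
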