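import Claimed.Agent.R314.C.Aff.Sys

/-!
# Row 314, block C, package AFF (helper97), file 3: the section of `Φ = (a i - a i x₀)_i`

`hs : AffSys n X g x₀ k a e`.  `aPhi a x₀ z = (a i z - a i x₀)_i : E k`.
* `AffSys.norm_phi_le`   : `‖Φ z‖ ≤ rdist x₀ z`;
* `aSec` : `s ξ = γ_ξ 1`, `γ_ξ` the geodesic with `γ_ξ 0 = x₀`, `γ_ξ' 0 = ∑ ξ i • e i`;  `Φ (s ξ) = ξ`, `rdist x₀ (s ξ) = ‖ξ‖`;
* `AffSys.sec_unique` : `z ∈ X`, `rdist x₀ z = ‖Φ z‖` ⟹ `z = s (Φ z)`;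
* `AffSys.sec_continuous` : closed graph + properness (NO smooth dependence on initial values is used).
-/

set_option autoImplicit false
set_option linter.unusedSectionVars false
open scoped ContDiff Topology
open Set Claims.C0499 Claimed.Agent.R315

namespace Claimed.Agent.R314

variable {V : Type} [NormedAddCommGroup V] [NormedSpace ℝ V] [FiniteDimensional ℝ V]
variable {n : ℕ} {X : Set V} {g : Ten V}
variable {x₀ : V} {k : ℕ} {a : Fin k → V → ℝ} {e : Fin k → V}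

/-- `Φ z = (a i z - a i x₀)_i`. -/
noncomputable def aPhi (a : Fin k → V → ℝ) (x₀ z : V) : E k := WithLp.toLp 2 fun i => a i z - a i x₀

@[simp] theorem aPhi_apply (a : Fin k → V → ℝ) (x₀ z : V) (i : Fin k) :
    aPhi a x₀ z i = a i z - a i x₀ := rfl

theorem aPhi_continuousOn (hX : IsMfd n X) (hs : AffSys n X g x₀ k a e) :
    ContinuousOn (aPhi a x₀) X := by
  have h1 : ContinuousOn (fun z => (fun i => a i z - a i x₀ : Fin k → ℝ)) X :=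
    continuousOn_pi.2 fun i => ((hs.aff i).continuousOn hX).sub continuousOn_const
  exact (PiLp.continuous_toLp 2 _).comp_continuousOn h1

theorem sum_sq_eq_norm_sq (ξ : E k) : ∑ i, ξ i ^ 2 = ‖ξ‖ ^ 2 := by
  rw [EuclideanSpace.norm_sq_eq]
  simp

/-- **leaf C-AFF-LOW**.  `w := Φ z`, `a_w := ∑ w i * a i` is affine with gradient `∑ w i • e i` of norm `‖w‖` (`IsAff.sum`, `IsGradAt.sum`, `AffSys.norm_sum`, `sum_sq_eq_norm_sq`);
`a_w z - a_w x₀ = ∑ w i ^ 2 = ‖w‖²`; `IsAff.abs_sub_le`: `‖w‖² ≤ ‖w‖ * rdist x₀ z`. -/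
theorem AffSys.norm_phi_le (h : CM n X g) (hx₀ : x₀ ∈ X) (hs : AffSys n X g x₀ k a e) {z : V}
    (hz : z ∈ X) : ‖aPhi a x₀ z‖ ≤ rdist X g x₀ z := by
  obtain ⟨w, hw⟩ : ∃ w : E k, w = aPhi a x₀ z := ⟨_, rfl⟩
  rw [← hw]
  have hA : IsAff n X g (fun y => ∑ i ∈ Finset.univ, w i * a i y) :=
    IsAff.sum Finset.univ (fun i => w i) (fun i _ => hs.aff i)
  have hgrad : IsGradAt n X g (fun y => ∑ i ∈ Finset.univ, w i * a i y) x₀ (∑ i ∈ Finset.univ, w i • e i) :=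
    IsGradAt.sum Finset.univ (fun i => w i) h.mfd hx₀ (fun i _ => (hs.aff i).1) (fun i _ => hs.grad i)
  have hb := hA.abs_sub_le h hx₀ hgrad hz
  rw [hs.norm_sum, sum_sq_eq_norm_sq, Real.sqrt_sq (norm_nonneg _)] at hb
  have e1 : (∑ i, w i * a i z) - ∑ i, w i * a i x₀ = ‖w‖ ^ 2 := by
    rw [← sum_sq_eq_norm_sq, ← Finset.sum_sub_distrib]
    refine Finset.sum_congr rfl fun i _ => ?_
    have : w i = a i z - a i x₀ := by rw [hw]; rfl
    rw [← mul_sub, ← this, sq]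
  simp only at hb
  rw [e1, abs_of_nonneg (sq_nonneg _)] at hb
  rcases (norm_nonneg w).eq_or_lt with h0 | h0
  · rw [← h0]
    exact if_rdist_nonneg X g x₀ z
  · have : ‖w‖ * ‖w‖ ≤ ‖w‖ * rdist X g x₀ z := by rwa [← sq]
    exact le_of_mul_le_mul_left this h0

open Classical in
/-- the section: `s ξ = exp_{x₀} (∑ ξ i • e i)`. -/
noncomputable def aSec (n : ℕ) (X : Set V) (g : Ten V) (x₀ : V) (e : Fin k → V) (ξ : E k) : V :=
  if H : ∃ γ : ℝ → V, IsGeo n X g γ univ ∧ γ 0 = x₀ ∧ deriv γ 0 = ∑ i, ξ i • e i then H.choose 1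
  else x₀

theorem AffSys.exists_sec_geo (h : CM n X g) (hx₀ : x₀ ∈ X) (hs : AffSys n X g x₀ k a e) (ξ : E k) :
    ∃ γ : ℝ → V, IsGeo n X g γ univ ∧ γ 0 = x₀ ∧ deriv γ 0 = ∑ i, ξ i • e i ∧
      aSec n X g x₀ e ξ = γ 1 := by
  have H := geo_exists h hx₀ (hs.sum_mem_tan h.mfd hx₀ ξ)
  refine ⟨H.choose, H.choose_spec.1, H.choose_spec.2.1, H.choose_spec.2.2, ?_⟩
  unfold aSec
  rw [dif_pos H]

theorem AffSys.sec_mem (h : CM n X g) (hx₀ : x₀ ∈ X) (hs : AffSys n X g x₀ k a e) (ξ : E k) :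
    aSec n X g x₀ e ξ ∈ X := by
  obtain ⟨γ, hγ, -, -, h1⟩ := hs.exists_sec_geo h hx₀ ξ
  rw [h1]
  exact hγ.2.1 1 (mem_univ _)

/-- `Φ ∘ s = id`. -/
theorem AffSys.phi_sec (h : CM n X g) (hx₀ : x₀ ∈ X) (hs : AffSys n X g x₀ k a e) (ξ : E k) :
    aPhi a x₀ (aSec n X g x₀ e ξ) = ξ := by
  obtain ⟨γ, hγ, h0, hd, h1⟩ := hs.exists_sec_geo h hx₀ ξ
  ext i
  have := (hs.aff i).comp_geo h.mfd h.met (hγ.mono (subset_univ (Ioo (-1 : ℝ) 2))) (t₀ := 0) (t := 1)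
    ⟨by norm_num, by norm_num⟩ ⟨by norm_num, by norm_num⟩
  rw [h0, hd, (hs.grad i).2 _ (hs.sum_mem_tan h.mfd hx₀ ξ), hs.inner_sum] at this
  rw [aPhi_apply, h1, this]
  ring

theorem AffSys.rdist_sec (h : CM n X g) (hx₀ : x₀ ∈ X) (hs : AffSys n X g x₀ k a e) (ξ : E k) :
    rdist X g x₀ (aSec n X g x₀ e ξ) = ‖ξ‖ := by
  refine le_antisymm ?_ ?_
  · obtain ⟨γ, hγ, h0, hd, h1⟩ := hs.exists_sec_geo h hx₀ ξ
    have := hγ.rdist_le h.mfd h.met 0 1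
    rw [h0, hd, hs.norm_sum, sum_sq_eq_norm_sq, Real.sqrt_sq (norm_nonneg _), ← h1] at this
    simpa using this
  · have := hs.norm_phi_le h hx₀ (hs.sec_mem h hx₀ ξ)
    rwa [hs.phi_sec h hx₀] at this

/-- **leaf C-AFF-UNIQ**.  `ξ := Φ z`, `l := rdist x₀ z = ‖ξ‖`.  If `z = x₀`: `ξ = 0`, `rdist x₀ (s 0) = 0` (`rdist_sec`), `if_rdist_eq_zero_iff`.
Otherwise `exists_unit_geo`: `γ` on `Ioo (-ε) (l + ε)`, `T := γ' 0`, `|T| = 1`.  `w i := ξ i / l`, `e_w := ∑ w i • e i`, `|e_w|² = 1` (`norm_sum`).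
`a_w := ∑ w i * a i`: `a_w z - a_w x₀ = ∑ w i * ξ i = l`, and `= l * g x₀ e_w T` (`IsAff.sub_eq`, `IsGradAt.sum`): `g x₀ e_w T = 1`;
`g x₀ (e_w - T) (e_w - T) = 1 - 2 + 1 = 0` (`tan_symm`), so `T = e_w` (`tan_eq_zero`, `if_tan_add`, `if_tan_smul`).
`σ` := the geodesic of `exists_sec_geo ξ`; `t ↦ σ (l⁻¹ * t + 0)` is a geodesic (`IsGeo.comp_affine`) with value `x₀` and velocity `l⁻¹ • ∑ ξ i • e i = e_w` at `0`
(`deriv` of `σ ∘ affine`: `σ` is differentiable at `0` since it is smooth on `univ`); `IsGeo.eqOn` on `Ioo (-ε) (l + ε)`: `z = γ l = σ 1`. -/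
theorem AffSys.sec_unique (h : CM n X g) (hx₀ : x₀ ∈ X) (hs : AffSys n X g x₀ k a e) {z : V}
    (hz : z ∈ X) (hd : rdist X g x₀ z = ‖aPhi a x₀ z‖) : z = aSec n X g x₀ e (aPhi a x₀ z) := by
  by_cases hzx : z = x₀
  · subst hzx
    have e0 : aPhi a z z = 0 := by
      ext i
      simp
    rw [e0]
    have h1 := hs.rdist_sec h hx₀ 0
    rw [norm_zero] at h1
    exact (if_rdist_eq_zero_iff h.mfd h.conn.isPreconnected h.met hx₀ (hs.sec_mem h hx₀ 0)).1 h1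
  obtain ⟨γ, ε, hε, hl, hγ, e0, e1, htan, hu⟩ := exists_unit_geo h hx₀ hz (Ne.symm hzx)
  obtain ⟨ξ, hξ⟩ : ∃ ξ : E k, ξ = aPhi a x₀ z := ⟨_, rfl⟩
  obtain ⟨l, hldef⟩ : ∃ l : ℝ, l = rdist X g x₀ z := ⟨_, rfl⟩
  rw [← hξ] at hd ⊢
  rw [← hldef] at hd hl hγ e1
  have hl0 : l ≠ 0 := hl.ne'
  have hsq : ∑ i, ξ i ^ 2 = l ^ 2 := by rw [sum_sq_eq_norm_sq, hd]
  obtain ⟨ew, hew⟩ : ∃ ew : V, ew = ∑ i, (ξ i / l) • e i := ⟨_, rfl⟩
  have hewT : ew ∈ if_Tan n X x₀ := by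
    rw [hew]
    exact hs.sum_mem_tan h.mfd hx₀ fun i => ξ i / l
  have hew1 : g x₀ ew ew = 1 := by
    rw [hew, hs.norm_sum]
    have : ∑ i, (ξ i / l) ^ 2 = (∑ i, ξ i ^ 2) / l ^ 2 := by
      rw [Finset.sum_div]
      exact Finset.sum_congr rfl fun i _ => div_pow _ _ _
    rw [this, hsq, div_self (pow_ne_zero 2 hl0)]
  have hA : IsAff n X g (fun y => ∑ i ∈ Finset.univ, ξ i / l * a i y) :=
    IsAff.sum Finset.univ (fun i => ξ i / l) (fun i _ => hs.aff i)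
  have hgrad : IsGradAt n X g (fun y => ∑ i ∈ Finset.univ, ξ i / l * a i y) x₀ ew := by
    rw [hew]
    exact IsGradAt.sum Finset.univ (fun i => ξ i / l) h.mfd hx₀ (fun i _ => (hs.aff i).1) (fun i _ => hs.grad i)
  have hinc := hA.sub_eq h hε hl hγ e0 e1
  rw [hgrad.2 _ htan] at hinc
  have e2 : (∑ i, ξ i / l * a i z) - ∑ i, ξ i / l * a i x₀ = l := by
    rw [← Finset.sum_sub_distrib]
    have : ∀ i, ξ i / l * a i z - ξ i / l * a i x₀ = ξ i ^ 2 / l := fun i => by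
      have h2 : ξ i = a i z - a i x₀ := by rw [hξ]; rfl
      rw [← mul_sub, ← h2]
      ring
    rw [Finset.sum_congr rfl fun i _ => this i, ← Finset.sum_div, hsq]
    field_simp
  have hewT1 : g x₀ ew (deriv γ 0) = 1 := by
    simp only at hinc
    have h3 : l * g x₀ ew (deriv γ 0) = l * 1 := by linarith
    exact mul_left_cancel₀ hl0 h3
  have hsub : ew + (-1 : ℝ) • deriv γ 0 ∈ if_Tan n X x₀ := if_tan_add hewT (if_tan_smul _ htan)
  have hzero : g x₀ (ew + (-1 : ℝ) • deriv γ 0) (ew + (-1 : ℝ) • deriv γ 0) = 0 := by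
    have hsym := tan_symm h.met htan hewT
    simp only [map_add, map_smul, add_apply, smul_apply, smul_eq_mul]
    rw [hew1, hewT1, hsym, hewT1, hu]
    ring
  have hT : deriv γ 0 = ew := by
    have h4 := tan_eq_zero h.met hsub hzero
    rw [neg_one_smul, ← sub_eq_add_neg, sub_eq_zero] at h4
    exact h4.symm
  obtain ⟨σ, hσ, s0, sd, s1⟩ := hs.exists_sec_geo h hx₀ ξ
  have hσ' : IsGeo n X g (fun t => σ (l⁻¹ * t + 0)) (Ioo (-ε) (l + ε)) :=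
    (hσ.comp_affine l⁻¹ 0).mono fun t _ => mem_univ _
  have hdiff : DifferentiableAt ℝ σ (l⁻¹ * 0 + 0) :=
    ((contDiffOn_univ.1 hσ.1).differentiable (by simp)).differentiableAt
  have hder : deriv (fun t => σ (l⁻¹ * t + 0)) 0 = ew := by
    have h5 : HasDerivAt (fun t : ℝ => l⁻¹ * t + 0) l⁻¹ 0 := by
      simpa using ((hasDerivAt_id (0 : ℝ)).const_mul l⁻¹).add_const 0
    have h6 := HasDerivAt.scomp (h := fun t : ℝ => l⁻¹ * t + 0) 0 hdiff.hasDerivAt h5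
    have h7 : deriv (fun t => σ (l⁻¹ * t + 0)) 0 = l⁻¹ • deriv σ (l⁻¹ * 0 + 0) := h6.deriv
    rw [h7, mul_zero, add_zero, sd, hew, Finset.smul_sum]
    refine Finset.sum_congr rfl fun i _ => ?_
    rw [smul_smul, div_eq_inv_mul]
  have heq := IsGeo.eqOn h.mfd h.met hγ hσ' (t₀ := 0) ⟨by linarith, by linarith⟩
    (by simp only [mul_zero, add_zero]; rw [e0, s0]) (by rw [hT, hder])
  have h8 := heq (show l ∈ Ioo (-ε) (l + ε) from ⟨by linarith, by linarith⟩)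
  simp only at h8
  rw [e1, inv_mul_cancel₀ hl0, add_zero] at h8
  rw [h8, s1]

/-- **leaf C-AFF-CONT**.  Sequential continuity (`E k` is first countable: `continuous_iff_seqContinuous` / `tendsto_of_subseq_tendsto`).  `ξ_j → ξ`; `s ξ_j ∈ cb X g x₀ R`, `R := sup ‖ξ_j‖` (bounded since convergent), a compact set (`h.proper`).
Every subsequence has a further subsequence with `s ξ_j → z ∈ X` (`IsCompact.tendsto_subseq`); `Φ z = lim Φ (s ξ_j) = ξ` (`aPhi_continuousOn`, `phi_sec`), `rdist x₀ z = lim ‖ξ_j‖ = ‖ξ‖` (`if_rdist_continuousOn`, `rdist_sec`);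
`sec_unique`: `z = s ξ`. -/
theorem AffSys.sec_continuous (h : CM n X g) (hx₀ : x₀ ∈ X) (hs : AffSys n X g x₀ k a e) :
    Continuous (aSec n X g x₀ e) := by
  rw [continuous_iff_seqContinuous]
  intro ξs ξ hξ
  refine Filter.tendsto_of_subseq_tendsto fun ns hns => ?_
  obtain ⟨R, hR⟩ : ∃ R, ∀ j, ‖ξs j‖ ≤ R := by
    obtain ⟨R, hR⟩ := hξ.norm.bddAbove_range
    exact ⟨R, fun j => hR ⟨j, rfl⟩⟩
  have hK : IsCompact {y | y ∈ X ∧ rdist X g x₀ y ≤ R} := h.proper x₀ hx₀ R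
  have hmem : ∀ j, aSec n X g x₀ e (ξs (ns j)) ∈ {y | y ∈ X ∧ rdist X g x₀ y ≤ R} := fun j =>
    ⟨hs.sec_mem h hx₀ _, by rw [hs.rdist_sec h hx₀]; exact hR _⟩
  obtain ⟨z, hz, φ, hφ, hlim⟩ := hK.tendsto_subseq hmem
  refine ⟨φ, ?_⟩
  have hξ' : Filter.Tendsto (fun j => ξs (ns (φ j))) Filter.atTop (𝓝 ξ) := hξ.comp (hns.comp hφ.tendsto_atTop)
  have hlimX : Filter.Tendsto (fun j => aSec n X g x₀ e (ξs (ns (φ j)))) Filter.atTop (𝓝[X] z) :=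
    tendsto_nhdsWithin_iff.2 ⟨hlim, Filter.Eventually.of_forall fun j => hs.sec_mem h hx₀ _⟩
  have h1 : Filter.Tendsto (fun j => aPhi a x₀ (aSec n X g x₀ e (ξs (ns (φ j))))) Filter.atTop (𝓝 (aPhi a x₀ z)) :=
    ((aPhi_continuousOn h.mfd hs) z hz.1).tendsto.comp hlimX
  simp only [hs.phi_sec h hx₀] at h1
  have hΦ : aPhi a x₀ z = ξ := tendsto_nhds_unique h1 hξ'
  have h2 : Filter.Tendsto (fun j => rdist X g x₀ (aSec n X g x₀ e (ξs (ns (φ j))))) Filter.atTop (𝓝 (rdist X g x₀ z)) :=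
    ((if_rdist_continuousOn h.mfd h.conn.isPreconnected (if_isMetricOn_iff.1 h.met).1 hx₀) z hz.1).tendsto.comp hlimX
  simp only [hs.rdist_sec h hx₀] at h2
  have hd : rdist X g x₀ z = ‖ξ‖ := tendsto_nhds_unique h2 hξ'.norm
  have h3 := hs.sec_unique h hx₀ hz.1 (by rw [hd, hΦ])
  rw [hΦ] at h3
  rw [← h3]
  exact hlim

end Claimed.Agent.R314
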