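import Claimed.Agent.R314.C.Aff.Basic

/-!
# Row 314, block C, package AFF (helper97), file 2: orthonormal systems of affine functions at a base point

`AffSys n X g x₀ k a e`: affine functions `a 0, …, a (k-1)` whose gradients `e i` at `x₀` are orthonormal.
* `AffSys.le` : `k ≤ n`;
* `exists_max_sys` : a system which spans all affine functions modulo constants;
* `AffSys.exists_perp` : if `k < n` there is a tangent vector `≠ 0` orthogonal to all `e i`.
-/

set_option autoImplicit false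
set_option linter.unusedSectionVars false
open scoped ContDiff Topology
open Set Claims.C0499 Claimed.Agent.R315

namespace Claimed.Agent.R314

variable {V : Type} [NormedAddCommGroup V] [NormedSpace ℝ V] [FiniteDimensional ℝ V]
variable {n : ℕ} {X : Set V} {g : Ten V}

/-- affine functions with orthonormal gradients at `x₀`. -/
structure AffSys (n : ℕ) (X : Set V) (g : Ten V) (x₀ : V) (k : ℕ) (a : Fin k → V → ℝ)
    (e : Fin k → V) : Prop where
  aff : ∀ i, IsAff n X g (a i)
  grad : ∀ i, IsGradAt n X g (a i) x₀ (e i)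
  on : ∀ i j, g x₀ (e i) (e j) = if i = j then 1 else 0

/-- the system spans all affine functions modulo constants. -/
def AffSys.Spans (n : ℕ) (X : Set V) (g : Ten V) {k : ℕ} (a : Fin k → V → ℝ) : Prop :=
  ∀ a' : V → ℝ, IsAff n X g a' → ∃ (c₀ : ℝ) (c : Fin k → ℝ), ∀ x ∈ X, a' x = c₀ + ∑ i, c i * a i x

variable {x₀ : V} {k : ℕ} {a : Fin k → V → ℝ} {e : Fin k → V}

/-- pairing of a linear combination of the `e i` with `e j`. -/
theorem AffSys.inner_sum (hs : AffSys n X g x₀ k a e) (c : Fin k → ℝ) (j : Fin k) :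
    g x₀ (e j) (∑ i, c i • e i) = c j := by
  simp only [map_sum, map_smul, smul_eq_mul, hs.on]
  simp

theorem AffSys.sum_mem_tan (hX : IsMfd n X) (hx₀ : x₀ ∈ X) (hs : AffSys n X g x₀ k a e)
    (c : Fin k → ℝ) : ∑ i, c i • e i ∈ if_Tan n X x₀ := by
  classical
  have : ∀ s : Finset (Fin k), ∑ i ∈ s, c i • e i ∈ if_Tan n X x₀ := by
    intro s
    induction s using Finset.induction_on with
    | empty => simpa using if_tan_zero hX hx₀
    | insert i s hi ih =>
      rw [Finset.sum_insert hi]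
      exact if_tan_add (if_tan_smul _ (hs.grad i).1) ih
  exact this _

/-- norm of a linear combination. -/
theorem AffSys.norm_sum (hs : AffSys n X g x₀ k a e) (c : Fin k → ℝ) :
    g x₀ (∑ i, c i • e i) (∑ i, c i • e i) = ∑ i, c i ^ 2 := by
  have : ∀ w : V, g x₀ (∑ i, c i • e i) w = ∑ i, c i * g x₀ (e i) w := by
    intro w
    simp only [map_sum, map_smul, sum_apply, smul_apply,
      smul_eq_mul]
  rw [this]
  refine Finset.sum_congr rfl fun i _ => ?_
  rw [hs.inner_sum, sq]

/-- **leaf C-AFF-DIM** (two statements).  Fix a parametrisation with `ψ u = x₀`; `e i = dψ (A i)` (`if_tan_iff`).  The `A i` are linearly independent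
(`∑ c i • A i = 0 ⟹ ∑ c i • e i = 0 ⟹ c j = 0` by `inner_sum`): `LinearIndependent.fintype_card_le_finrank`, `finrank_euclideanSpace_fin`. -/
theorem AffSys.le (hX : IsMfd n X) (hx₀ : x₀ ∈ X) (hs : AffSys n X g x₀ k a e) : k ≤ n := by
  obtain ⟨ψ, U, hp, u, hu, rfl⟩ := hX x₀ hx₀
  choose A hA using fun i => (if_tan_iff hp hu).1 (hs.grad i).1
  have hli : LinearIndependent ℝ A := by
    rw [Fintype.linearIndependent_iff]
    intro c hc j
    have h1 : ∑ i, c i • e i = 0 := by
      have h2 : ∑ i, c i • e i = fderiv ℝ ψ u (∑ i, c i • A i) := by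
        rw [map_sum]
        refine Finset.sum_congr rfl fun i _ => ?_
        rw [map_smul, ← hA i]
      rw [h2, hc, map_zero]
    have h3 := hs.inner_sum c j
    rw [h1, map_zero] at h3
    exact h3.symm
  have h4 := hli.fintype_card_le_finrank
  simpa using h4

/-- the linear map `E n → (Fin k → ℝ)`, `A ↦ (g x₀ (e i) (dψ A))_i` has a kernel if `k < n` (`LinearMap.exists_ne_zero_of_...` / `LinearMap.ker_ne_bot_of_finrank_lt`); `dψ` is injective. -/
theorem AffSys.exists_perp (hX : IsMfd n X) (hx₀ : x₀ ∈ X) (hs : AffSys n X g x₀ k a e)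
    (hk : k < n) : ∃ v ∈ if_Tan n X x₀, v ≠ 0 ∧ ∀ i, g x₀ (e i) v = 0 := by
  obtain ⟨ψ, U, hp, u, hu, rfl⟩ := hX x₀ hx₀
  let L : E n →ₗ[ℝ] (Fin k → ℝ) :=
    LinearMap.pi fun i => ((g (ψ u) (e i)).comp (fderiv ℝ ψ u)).toLinearMap
  have hker : LinearMap.ker L ≠ ⊥ := LinearMap.ker_ne_bot_of_finrank_lt (by simpa using hk)
  obtain ⟨A, hA, hA0⟩ := Submodule.exists_mem_ne_zero_of_ne_bot hker
  refine ⟨fderiv ℝ ψ u A, if_tan_mk hp hu A, ?_, ?_⟩
  · intro h0
    exact hA0 (if_imm hp hu (by rw [h0, map_zero]))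
  · intro i
    have h1 := congrFun (LinearMap.mem_ker.1 hA) i
    simpa [L] using h1

/-- the gradient of a sum. -/
theorem aff_gradAt_add {a b : V → ℝ} {x ea eb' : V} (ha : SmoothAlong n X a)
    (hb : SmoothAlong n X b) (hea : IsGradAt n X g a x ea) (heb : IsGradAt n X g b x eb') :
    IsGradAt n X g (fun y => a y + b y) x (ea + eb') := by
  refine ⟨if_tan_add hea.1 heb.1, fun v hv => ?_⟩
  have hv' := hv
  obtain ⟨ψ, U, u, A, hp, hu, rfl, rfl⟩ := hv
  have hab : SmoothAlong n X (fun y => a y + b y) := fun ψ U hp => (ha ψ U hp).add (hb ψ U hp)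
  rw [if_tder_apply hab hp hu]
  have h1 : HasFDerivAt ((fun y => a y + b y) ∘ ψ) (fderiv ℝ (a ∘ ψ) u + fderiv ℝ (b ∘ ψ) u) u :=
    (if_smoothAlong_differentiableAt ha hp hu).hasFDerivAt.add
      (if_smoothAlong_differentiableAt hb hp hu).hasFDerivAt
  rw [h1.fderiv, map_add, add_apply, add_apply,
    ← hea.2 _ hv', ← heb.2 _ hv', if_tder_apply ha hp hu, if_tder_apply hb hp hu]

/-- the gradient of a multiple. -/
theorem aff_gradAt_smul {a : V → ℝ} {x ea : V} (c : ℝ) (ha : SmoothAlong n X a)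
    (hea : IsGradAt n X g a x ea) : IsGradAt n X g (fun y => c * a y) x (c • ea) := by
  refine ⟨if_tan_smul c hea.1, fun v hv => ?_⟩
  have hv' := hv
  obtain ⟨ψ, U, u, A, hp, hu, rfl, rfl⟩ := hv
  have hca : SmoothAlong n X (fun y => c * a y) := fun ψ U hp => contDiffOn_const.mul (ha ψ U hp)
  rw [if_tder_apply hca hp hu]
  have h1 : HasFDerivAt ((fun y => c * a y) ∘ ψ) (c • fderiv ℝ (a ∘ ψ) u) u :=
    (if_smoothAlong_differentiableAt ha hp hu).hasFDerivAt.const_mul c
  rw [h1.fderiv, map_smul, smul_apply, smul_apply,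
    ← hea.2 _ hv', if_tder_apply ha hp hu]

/-- one more orthonormal vector enlarges the system. -/
theorem aff_sys_snoc (hg : IsMetricOn n X g) (hs : AffSys n X g x₀ k a e) {b : V → ℝ} {f : V}
    (hb : IsAff n X g b) (hf : IsGradAt n X g b x₀ f) (h1 : g x₀ f f = 1)
    (h0 : ∀ j, g x₀ (e j) f = 0) :
    AffSys n X g x₀ (k + 1) (Fin.snoc (α := fun _ => V → ℝ) a b)
      (Fin.snoc (α := fun _ => V) e f) := by
  refine ⟨fun i => ?_, fun i => ?_, fun i j => ?_⟩
  · refine Fin.lastCases ?_ (fun i => ?_) i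
    · simpa using hb
    · simpa using hs.aff i
  · refine Fin.lastCases ?_ (fun i => ?_) i
    · simpa using hf
    · simpa using hs.grad i
  · refine Fin.lastCases ?_ (fun i => ?_) i
    · refine Fin.lastCases ?_ (fun j => ?_) j
      · simpa using h1
      · have h2 : Fin.last k ≠ j.castSucc := (Fin.castSucc_lt_last j).ne'
        rw [Fin.snoc_last, Fin.snoc_castSucc, if_neg h2, tan_symm hg hf.1 (hs.grad j).1]
        exact h0 j
    · refine Fin.lastCases ?_ (fun j => ?_) j
      · have h2 : i.castSucc ≠ Fin.last k := (Fin.castSucc_lt_last i).ne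
        rw [Fin.snoc_last, Fin.snoc_castSucc, if_neg h2]
        exact h0 i
      · rw [Fin.snoc_castSucc, Fin.snoc_castSucc, hs.on i j]
        simp only [Fin.castSucc_inj]

/-- **leaf C-AFF-EXT**: a system which does not span can be enlarged.
Take `a'` affine which is not `c₀ + ∑ c i * a i` on `X`; `e'` its gradient (`exists_gradAt`); `c i := g x₀ (e i) e'`; `a'' := a' - ∑ c i * a i` is affine (`IsAff.add`, `IsAff.sum` with `-c`)
with gradient `e'' := e' - ∑ c i • e i` (`IsGradAt.sum` on `Option`/two steps, or directly from the definition), `g x₀ (e j) e'' = 0`.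
If `g x₀ e'' e'' = 0` then `e'' = 0` (`tan_eq_zero`), `tder a'' = 0` on tangent vectors, `a''` is constant on `X` (`IsAff.eq_of_tder_zero`): contradiction.
Otherwise `r := √(g x₀ e'' e'') > 0` (`if_metric_nonneg`); the new system is `Fin.snoc a (r⁻¹ * a'')`, `Fin.snoc e (r⁻¹ • e'')` (orthonormality: `Fin.lastCases`, `tan_symm`). -/
theorem AffSys.extend (h : CM n X g) (hx₀ : x₀ ∈ X) (hs : AffSys n X g x₀ k a e)
    (hns : ¬ AffSys.Spans n X g a) :
    ∃ (a₁ : Fin (k + 1) → V → ℝ) (e₁ : Fin (k + 1) → V), AffSys n X g x₀ (k + 1) a₁ e₁ := by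
  unfold AffSys.Spans at hns
  push Not at hns
  obtain ⟨a', ha', hne⟩ := hns
  obtain ⟨e', he'⟩ := exists_gradAt h.mfd h.met ha'.1 hx₀
  obtain ⟨c, hc⟩ : ∃ c : Fin k → ℝ, c = fun i => g x₀ (e i) e' := ⟨_, rfl⟩
  obtain ⟨s, hsdef⟩ : ∃ s : V → ℝ, s = fun x => ∑ i, (-c i) * a i x := ⟨_, rfl⟩
  obtain ⟨es, hes⟩ : ∃ es : V, es = ∑ i, (-c i) • e i := ⟨_, rfl⟩
  have hsaff : IsAff n X g s := by
    rw [hsdef]
    exact IsAff.sum Finset.univ _ (fun i _ => hs.aff i)
  have hsgrad : IsGradAt n X g s x₀ es := by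
    rw [hsdef, hes]
    exact IsGradAt.sum Finset.univ _ h.mfd hx₀ (fun i _ => (hs.aff i).1) (fun i _ => hs.grad i)
  have haff : IsAff n X g (fun x => a' x + s x) := ha'.add hsaff
  have hgrad : IsGradAt n X g (fun x => a' x + s x) x₀ (e' + es) :=
    aff_gradAt_add ha'.1 hsaff.1 he' hsgrad
  have horth : ∀ j, g x₀ (e j) (e' + es) = 0 := by
    intro j
    rw [map_add, hes, hs.inner_sum (fun i => -c i) j, hc]
    ring
  have hnn : 0 ≤ g x₀ (e' + es) (e' + es) := if_metric_nonneg h.met hgrad.1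
  rcases hnn.eq_or_lt with h0 | hpos
  · exfalso
    have hz : e' + es = 0 := tan_eq_zero h.met hgrad.1 h0.symm
    have hconst : ∀ y ∈ X, a' y + s y = a' x₀ + s x₀ := fun y hy =>
      haff.eq_of_tder_zero h hx₀ (fun v hv => by rw [hgrad.2 v hv, hz]; simp) hy
    obtain ⟨y, hy, hy'⟩ := hne (a' x₀ + s x₀) c
    apply hy'
    have h2 := hconst y hy
    rw [← h2, hsdef]
    simp only [neg_mul, Finset.sum_neg_distrib]
    ring
  · obtain ⟨r, hr⟩ : ∃ r : ℝ, r = Real.sqrt (g x₀ (e' + es) (e' + es)) := ⟨_, rfl⟩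
    have hr0 : 0 < r := by rw [hr]; exact Real.sqrt_pos.2 hpos
    have hr2 : r * r = g x₀ (e' + es) (e' + es) := by rw [hr]; exact Real.mul_self_sqrt hnn
    refine ⟨_, _, aff_sys_snoc h.met hs (haff.smul r⁻¹) (aff_gradAt_smul r⁻¹ haff.1 hgrad) ?_ ?_⟩
    · rw [map_smul, map_smul, smul_apply, ← hr2]
      simp only [smul_eq_mul]
      field_simp
    · intro j
      rw [map_smul, horth j, smul_zero]

/-- a maximal orthonormal system spans. -/
theorem exists_max_sys (h : CM n X g) (hx₀ : x₀ ∈ X) :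
    ∃ (k : ℕ) (a : Fin k → V → ℝ) (e : Fin k → V), AffSys n X g x₀ k a e ∧
      AffSys.Spans n X g a := by
  by_contra hcon
  push Not at hcon
  have key : ∀ k : ℕ, ∃ (a : Fin k → V → ℝ) (e : Fin k → V), AffSys n X g x₀ k a e := by
    intro k
    induction k with
    | zero => exact ⟨fun i => i.elim0, fun i => i.elim0, fun i => i.elim0, fun i => i.elim0,
        fun i => i.elim0⟩
    | succ k ih =>
      obtain ⟨a, e, hs⟩ := ih
      exact hs.extend h hx₀ (hcon k a e hs)
  obtain ⟨a, e, hs⟩ := key (n + 1)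
  have := hs.le h.mfd hx₀
  omega

end Claimed.Agent.R314
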